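import Vale.Agent.P078.Final.Inputs
import Vale.Agent.P078.Colours.Goal

/-!
# P078: so-paving of every MASA with `C / ε ^ 2` pieces
-/

namespace Vale.Agent.Results.P078.SoPavingEveryMasa

open Vale.Agent.P078

universe u

/-- For each `ε` one `r ≤ C / ε ^ 2` paves, strongly, all MASAs of all von Neumann algebras. -/
theorem result :
    ∃ C : ℝ, 0 < C ∧ ∀ ε : ℝ, 0 < ε → ε ≤ 1 → ∃ r : ℕ, 1 ≤ r ∧ (r : ℝ) ≤ C / ε ^ 2 ∧
      ∀ (H : Type u) [NormedAddCommGroup H] [InnerProductSpace ℂ H] [CompleteSpace H]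
        (M A : VonNeumannAlgebra H), General.IsMasa M A →
          ∀ x ∈ M, IsSelfAdjoint x → General.SoPavable M A ε r x :=
  General.Final.exists_bound_of_stmtColours General.Single.Colours.stmtColours

end Vale.Agent.Results.P078.SoPavingEveryMasa
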